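import Mathlib
import Vale.Agent.Lib.P247.Main

namespace Vale.Agent.Results.P247.TwoConstantForms

open Vale.Agent.Lib.P247

/-- On the torus `T⁴ = ℝ⁴/ℤ⁴`: let `c1, c2, c3` be constant two-forms and `α` a continuously
differentiable `ℤ⁴`-periodic one-form. If the triple `(c1, c2, c3 + dα)` is positive at every
point (a hypersymplectic structure with two constant members), then the whole linear path
`(c1, c2, c3 + t dα)`, `0 ≤ t ≤ 1`, down to the constant triple `(c1, c2, c3)` consists of
positive triples. -/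
theorem result (c1 c2 c3 : Fin 4 → Fin 4 → ℝ) (α : (Fin 4 → ℝ) → Fin 4 → ℝ)
    (hα : ContDiff ℝ 1 α) (hper : ∀ x (j : Fin 4), α (x + Pi.single j 1) = α x)
    (hpos : ∀ x, PosTriple ![c1, c2, c3 + dOne α x]) :
    ∀ t ∈ Set.Icc (0 : ℝ) 1, ∀ x, PosTriple ![c1, c2, c3 + t • dOne α x] :=
  linear_path c1 c2 c3 α hα hper hpos

end Vale.Agent.Results.P247.TwoConstantForms
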